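import Vale.Agent.P017.R3.Gen

/-!
# P017 density project, module B3b: first moment of the number of kernel vectors (LA2) and the
vectors in both kernels (LA3g)
-/

open Finset Matrix

namespace Vale.Agent.P017.R3.H237

open Vale.Agent.P017.R3

variable {V : Type}

lemma sum_z2 (f : ZMod 2 → ℝ) : ∑ b : ZMod 2, f b = f 0 + f 1 := Fin.sum_univ_two f

lemma z2_cases (b : ZMod 2) : b = 0 ∨ b = 1 := by
  fin_cases b
  · exact Or.inl rfl
  · exact Or.inr rfl

/-- sums over vectors on `Option V` -/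
lemma sum_optv [Fintype V] [DecidableEq V] (F : (Option V → ZMod 2) → ℝ) :
    ∑ y : Option V → ZMod 2, F y = ∑ x : V → ZMod 2, ∑ b : ZMod 2, F (extv x b) := by
  rw [← Finset.sum_product', Finset.univ_product_univ]
  refine (Fintype.sum_equiv (((Equiv.piOptionEquivProd (β := fun _ : Option V => ZMod 2)).trans
    (Equiv.prodComm _ _)).symm) _ _ ?_).symm
  rintro ⟨x, b⟩
  congr 1
  funext a
  cases a <;> rfl

lemma ext_mulVec [Fintype V] [DecidableEq V] (M : Matrix V V (ZMod 2)) (φ ψ : V → ZMod 2)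
    (w : ZMod 2) (x : V → ZMod 2) (b : ZMod 2) :
    (ext M φ ψ w).mulVec (extv x b) = extv (M.mulVec x + b • φ) (ψ ⬝ᵥ x + w * b) := by
  funext a
  cases a with
  | none => simp [ext, extv, mulVec, dotProduct, Fintype.sum_option, add_comm]
  | some a => simp [ext, extv, mulVec, dotProduct, Fintype.sum_option, add_comm, mul_comm]

lemma ext_vecMul [Fintype V] [DecidableEq V] (M : Matrix V V (ZMod 2)) (φ ψ : V → ZMod 2)
    (w : ZMod 2) (x : V → ZMod 2) (b : ZMod 2) :
    (ext M φ ψ w).vecMul (extv x b) = extv (M.vecMul x + b • ψ) (x ⬝ᵥ φ + b * w) := by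
  funext a
  cases a with
  | none => simp [ext, extv, vecMul, dotProduct, Fintype.sum_option, add_comm]
  | some a => simp [ext, extv, vecMul, dotProduct, Fintype.sum_option, add_comm]

lemma extv_eq_zero (x : V → ZMod 2) (b : ZMod 2) : extv x b = 0 ↔ x = 0 ∧ b = 0 := by
  constructor
  · intro h
    refine ⟨funext fun a => ?_, ?_⟩
    · exact congrFun h (some a)
    · exact congrFun h none
  · rintro ⟨rfl, rfl⟩
    funext a
    cases a <;> rfl

lemma two_pow_ck [Fintype V] [DecidableEq V] (M : Matrix V V (ZMod 2)) :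
    (2 : ℝ) ^ ck M = ∑ x : V → ZMod 2, if M.mulVec x = 0 then (1 : ℝ) else 0 := by
  classical
  have h1 : (univ.filter fun x : V → ZMod 2 => M.mulVec x = 0).card = 2 ^ ck M := by
    have h2 := Module.natCard_eq_pow_finrank (K := ZMod 2)
      (V := LinearMap.ker (Matrix.mulVecLin M))
    rw [Nat.card_zmod] at h2
    unfold ck
    rw [← h2, ← Fintype.card_subtype, ← Nat.card_eq_fintype_card]
    refine Nat.card_congr (Equiv.subtypeEquivRight ?_)
    intro x
    rw [LinearMap.mem_ker, Matrix.mulVecLin_apply]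
  rw [← Finset.sum_filter, Finset.sum_const, nsmul_eq_mul, mul_one, h1]
  push_cast
  rfl

/-- half of the vectors are orthogonal to a nonzero vector -/
lemma half [Fintype V] [DecidableEq V] {x : V → ZMod 2} (hx : x ≠ 0) (c : ZMod 2) :
    ∑ φ : V → ZMod 2, (if φ ⬝ᵥ x = c then (1 : ℝ) else 0) = 2 ^ Fintype.card V / 2 := by
  classical
  obtain ⟨i, hi⟩ : ∃ i, x i ≠ 0 := by
    by_contra h
    push Not at h
    exact hx (funext h)
  have hi1 : x i = 1 := (z2_cases (x i)).resolve_left hi
  have hsh : ∀ c : ZMod 2, ∑ φ : V → ZMod 2, (if φ ⬝ᵥ x = c then (1 : ℝ) else 0) =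
      ∑ φ : V → ZMod 2, (if φ ⬝ᵥ x = c + 1 then (1 : ℝ) else 0) := by
    intro c
    refine Fintype.sum_equiv (Equiv.addRight (Pi.single i 1)) _ _ ?_
    intro φ
    have : (φ + Pi.single i 1) ⬝ᵥ x = φ ⬝ᵥ x + 1 := by
      rw [add_dotProduct, single_dotProduct, one_mul, hi1]
    simp only [Equiv.coe_addRight, this, add_left_inj]
  have htot : ∑ φ : V → ZMod 2, (if φ ⬝ᵥ x = c then (1 : ℝ) else 0) +
      ∑ φ : V → ZMod 2, (if φ ⬝ᵥ x = c + 1 then (1 : ℝ) else 0) = 2 ^ Fintype.card V := by
    rw [← Finset.sum_add_distrib]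
    have : ∀ φ : V → ZMod 2, (if φ ⬝ᵥ x = c then (1 : ℝ) else 0) +
        (if φ ⬝ᵥ x = c + 1 then (1 : ℝ) else 0) = 1 := by
      intro φ
      generalize φ ⬝ᵥ x = d
      revert c d
      intro c
      have key : ∀ c d : ZMod 2, (d = c ∧ ¬ d = c + 1) ∨ (¬ d = c ∧ d = c + 1) := by decide
      intro d
      rcases key c d with h | h
      · rw [if_pos h.1, if_neg h.2]; norm_num
      · rw [if_neg h.1, if_pos h.2]; norm_num
    rw [Finset.sum_congr rfl fun φ _ => this φ]
    simp [ZMod.card]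
  have := hsh c
  linarith

/-- **LA2** -/
theorem stmtLA2 : StmtLA2 := by
  intro V _ _ M ν
  classical
  have h1 : ∀ φ : V → ZMod 2, ∀ w : ZMod 2, (2 : ℝ) ^ ck (ext M φ (φ + ν) w) =
      ∑ x : V → ZMod 2, ((if M.mulVec x = 0 ∧ (φ + ν) ⬝ᵥ x = 0 then (1 : ℝ) else 0) +
        (if φ = -(M.mulVec x) ∧ w = -((φ + ν) ⬝ᵥ x) then (1 : ℝ) else 0)) := by
    intro φ w
    rw [two_pow_ck, sum_optv]
    refine Finset.sum_congr rfl fun x _ => ?_
    rw [sum_z2]
    congr 1
    · refine if_congr ?_ rfl rfl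
      rw [ext_mulVec, extv_eq_zero, zero_smul, add_zero, mul_zero, add_zero]
    · refine if_congr ?_ rfl rfl
      rw [ext_mulVec, extv_eq_zero, one_smul, mul_one]
      constructor
      · rintro ⟨h1, h2⟩
        exact ⟨eq_neg_of_add_eq_zero_right h1, eq_neg_of_add_eq_zero_right h2⟩
      · rintro ⟨h1, h2⟩
        refine ⟨?_, ?_⟩
        · rw [h1]; exact add_neg_cancel _
        · rw [h2]; exact add_neg_cancel _
  have h2 : ∑ φ : V → ZMod 2, ∑ w : ZMod 2, (2 : ℝ) ^ ck (ext M φ (φ + ν) w) =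
      ∑ x : V → ZMod 2, ((if M.mulVec x = 0 then (1 : ℝ) else 0) *
        (if x = 0 then 2 ^ (Fintype.card V + 1) else 2 ^ Fintype.card V) + 1) := by
    simp only [h1]
    have e1 : ∑ φ : V → ZMod 2, ∑ w : ZMod 2, ∑ x : V → ZMod 2,
        ((if M.mulVec x = 0 ∧ (φ + ν) ⬝ᵥ x = 0 then (1 : ℝ) else 0) +
        (if φ = -(M.mulVec x) ∧ w = -((φ + ν) ⬝ᵥ x) then (1 : ℝ) else 0)) =
        ∑ x : V → ZMod 2, ∑ φ : V → ZMod 2, ∑ w : ZMod 2,
        ((if M.mulVec x = 0 ∧ (φ + ν) ⬝ᵥ x = 0 then (1 : ℝ) else 0) +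
        (if φ = -(M.mulVec x) ∧ w = -((φ + ν) ⬝ᵥ x) then (1 : ℝ) else 0)) := by
      rw [Finset.sum_comm]
      rw [Finset.sum_congr rfl fun w _ => Finset.sum_comm]
      rw [Finset.sum_comm]
      refine Finset.sum_congr rfl fun x _ => ?_
      rw [Finset.sum_comm]
    rw [e1]
    refine Finset.sum_congr rfl fun x _ => ?_
    have e2 : ∑ φ : V → ZMod 2, ∑ w : ZMod 2,
        ((if M.mulVec x = 0 ∧ (φ + ν) ⬝ᵥ x = 0 then (1 : ℝ) else 0) +
        (if φ = -(M.mulVec x) ∧ w = -((φ + ν) ⬝ᵥ x) then (1 : ℝ) else 0)) =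
        (∑ φ : V → ZMod 2, ∑ w : ZMod 2,
          (if M.mulVec x = 0 ∧ (φ + ν) ⬝ᵥ x = 0 then (1 : ℝ) else 0)) +
        ∑ φ : V → ZMod 2, ∑ w : ZMod 2,
        (if φ = -(M.mulVec x) ∧ w = -((φ + ν) ⬝ᵥ x) then (1 : ℝ) else 0) := by
      rw [← Finset.sum_add_distrib]
      refine Finset.sum_congr rfl fun φ _ => ?_
      rw [← Finset.sum_add_distrib]
    rw [e2]
    congr 1
    · by_cases hM : M.mulVec x = 0
      · simp only [hM, true_and, if_true, one_mul, Finset.sum_const, Finset.card_univ, ZMod.card,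
          nsmul_eq_mul]
        rw [← Finset.mul_sum]
        by_cases hx : x = 0
        · subst hx
          simp [ZMod.card, pow_succ, mul_comm]
        · rw [if_neg hx]
          have : ∀ φ : V → ZMod 2, ((φ + ν) ⬝ᵥ x = 0) = (φ ⬝ᵥ x = ν ⬝ᵥ x) := by
            intro φ
            rw [add_dotProduct]
            generalize φ ⬝ᵥ x = a
            generalize ν ⬝ᵥ x = b
            revert a b
            have key : ∀ a b : ZMod 2, (a + b = 0) ↔ (a = b) := by decide
            intro a b
            exact propext (key a b)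
          simp only [this]
          rw [half hx]
          push_cast
          ring
      · simp [hM]
    · have : ∀ φ : V → ZMod 2, ∑ w : ZMod 2,
          (if φ = -(M.mulVec x) ∧ w = -((φ + ν) ⬝ᵥ x) then (1 : ℝ) else 0) =
          if φ = -(M.mulVec x) then (1 : ℝ) else 0 := by
        intro φ
        by_cases hφ : φ = -(M.mulVec x)
        · simp only [hφ, true_and, if_true]
          rw [Finset.sum_ite_eq']
          simp
        · simp [hφ]
      simp only [this]
      rw [Finset.sum_ite_eq']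
      simp
  rw [h2, Finset.sum_add_distrib]
  have h3 : ∑ x : V → ZMod 2, (if M.mulVec x = 0 then (1 : ℝ) else 0) *
      (if x = 0 then 2 ^ (Fintype.card V + 1) else 2 ^ Fintype.card V) =
      2 ^ Fintype.card V * (2 : ℝ) ^ ck M + 2 ^ Fintype.card V := by
    have : ∀ x : V → ZMod 2, (if M.mulVec x = 0 then (1 : ℝ) else 0) *
      (if x = 0 then 2 ^ (Fintype.card V + 1) else 2 ^ Fintype.card V) =
      2 ^ Fintype.card V * (if M.mulVec x = 0 then (1 : ℝ) else 0) +
        (if x = 0 then 2 ^ Fintype.card V else 0) := by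
      intro x
      by_cases hx : x = 0
      · subst hx
        simp only [mulVec_zero, if_true]
        ring
      · rw [if_neg hx, if_neg hx]
        ring
    rw [Finset.sum_congr rfl fun x _ => this x, Finset.sum_add_distrib, ← Finset.mul_sum,
      ← two_pow_ck, Finset.sum_ite_eq']
    simp
  rw [h3]
  have h4 : ∑ x : V → ZMod 2, (1 : ℝ) = 2 ^ Fintype.card V := by
    simp [ZMod.card]
  rw [h4, pow_succ]
  apply le_of_eq
  ring

/-! ### vectors in both kernels -/

lemma sp_eq [Fintype V] [DecidableEq V] (M : Matrix V V (ZMod 2)) :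
    (sp M : ℝ) = ∑ x : V → ZMod 2,
      if x ≠ 0 ∧ M.mulVec x = 0 ∧ M.vecMul x = 0 then (1 : ℝ) else 0 := by
  unfold sp
  rw [← Finset.sum_filter, Finset.sum_const, nsmul_eq_mul, mul_one]

lemma z2_ne (b : ZMod 2) : b ≠ 1 → b = 0 := fun h => (z2_cases b).resolve_right h

/-- the vectors with a prescribed symmetric part are determined by one sum and their values
outside the support of `μ` -/
lemma card_sym [Fintype V] [DecidableEq V] (M : Matrix V V (ZMod 2)) (μ st : V → ZMod 2)
    (hR : Rec2 M μ st) (ν : V → ZMod 2) :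
    ∑ x : V → ZMod 2, (if M.mulVec x + M.vecMul x = ν then (1 : ℝ) else 0) ≤
      2 ^ (Fintype.card V + 1) * (1 / 2 : ℝ) ^ (univ.filter fun a => μ a = 1).card := by
  classical
  set m := (univ.filter fun a => μ a = 1).card with hm
  have hcard : Fintype.card {b : V // μ b = 0} + m = Fintype.card V := by
    have h1 := Finset.card_filter_add_card_filter_not (s := (univ : Finset V)) (fun a => μ a = 1)
    rw [Finset.card_univ] at h1
    rw [Fintype.card_subtype]
    have h2 : (univ.filter fun b : V => μ b = 0) = univ.filter fun a => ¬ μ a = 1 := by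
      refine Finset.filter_congr fun a _ => ?_
      constructor
      · intro h
        rw [h]
        decide
      · exact z2_ne _
    rw [h2, ← h1, hm, add_comm]
  let f : {x : V → ZMod 2 // M.mulVec x + M.vecMul x = ν} →
      ZMod 2 × ({b : V // μ b = 0} → ZMod 2) := fun x => (∑ b, μ b * x.1 b, fun b => x.1 b.1)
  have hf : Function.Injective f := by
    rintro ⟨x, hx⟩ ⟨y, hy⟩ hxy
    have h1 : ∑ b, μ b * x b = ∑ b, μ b * y b := congrArg Prod.fst hxy
    have h2 : ∀ b, μ b = 0 → x b = y b := fun b hb =>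
      congrFun (congrArg Prod.snd hxy) ⟨b, hb⟩
    refine Subtype.ext (funext fun a => ?_)
    rcases z2_cases (μ a) with ha | ha
    · exact h2 a ha
    set d : V → ZMod 2 := x - y with hd
    have hd0 : ∀ b, μ b = 0 → d b = 0 := fun b hb => by
      rw [hd, Pi.sub_apply, h2 b hb, sub_self]
    have hdS : ∑ b, μ b * d b = 0 := by
      have : ∀ b, μ b * d b = μ b * x b - μ b * y b := fun b => by
        rw [hd, Pi.sub_apply, mul_sub]
      rw [Finset.sum_congr rfl fun b _ => this b, Finset.sum_sub_distrib, h1, sub_self]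
    have hda : ∑ b, (M a b + M b a) * d b = 0 := by
      have e1 := congrFun hx a
      have e2 := congrFun hy a
      simp only [Pi.add_apply, mulVec, vecMul, dotProduct] at e1 e2
      have : ∀ b, (M a b + M b a) * d b =
          (M a b * x b + x b * M b a) - (M a b * y b + y b * M b a) := fun b => by
        rw [hd, Pi.sub_apply]; ring
      rw [Finset.sum_congr rfl fun b _ => this b, Finset.sum_sub_distrib,
        Finset.sum_add_distrib, Finset.sum_add_distrib, e1, e2, sub_self]
    have hst : ∀ b, μ b = 1 → st b = 0 := fun b hb => by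
      refine z2_ne _ fun h => ?_
      have := hR.zero b h
      rw [hb] at this
      exact absurd this (by decide)
    have key : ∀ b, (M a b + M b a) * d b = μ b * d b - (if b = a then d a else 0) := by
      intro b
      rcases z2_cases (μ b) with hb | hb
      · rw [hd0 b hb, mul_zero, mul_zero]
        split_ifs with h
        · rw [← h, hd0 b hb, sub_zero]
        · rw [sub_zero]
      · by_cases hba : b = a
        · subst hba
          rw [if_pos rfl, hb]
          generalize M b b = c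
          generalize d b = t
          revert c t
          decide
        · rw [if_neg hba, hR.recip a b (Ne.symm hba) (hst a ha) (hst b hb), ha, one_mul, sub_zero]
    rw [Finset.sum_congr rfl fun b _ => key b, Finset.sum_sub_distrib, hdS, zero_sub,
      Finset.sum_ite_eq' univ a, if_pos (mem_univ a), neg_eq_zero] at hda
    exact sub_eq_zero.1 hda
  have h3 := Fintype.card_le_of_injective f hf
  rw [Fintype.card_prod, Fintype.card_fun, ZMod.card, Fintype.card_subtype] at h3
  rw [← Finset.sum_filter, Finset.sum_const, nsmul_eq_mul, mul_one]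
  have h4 : ((univ.filter fun x : V → ZMod 2 => M.mulVec x + M.vecMul x = ν).card : ℝ) ≤
      2 * 2 ^ Fintype.card {b : V // μ b = 0} := by exact_mod_cast h3
  refine h4.trans (le_of_eq ?_)
  rw [← hcard, pow_succ, pow_add, one_div, inv_pow]
  field_simp

/-- **LA3g** -/
theorem stmtLA3g : StmtLA3g := by
  intro V _ _ M μ st e χ hR
  classical
  set ν : V → ZMod 2 := e • μ + χ • st with hν
  have neg2 : ∀ a : ZMod 2, -a = a := by decide
  have neg2v : ∀ a : V → ZMod 2, -a = a := fun a => funext fun i => neg2 _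
  have h1 : ∀ φ : V → ZMod 2, ∀ w : ZMod 2, (sp (ext M φ (φ + ν) w) : ℝ) ≤
      ∑ x : V → ZMod 2, ((if x ≠ 0 ∧ M.mulVec x = 0 ∧ M.vecMul x = 0 then (1 : ℝ) else 0) *
          (if φ ⬝ᵥ x = 0 then (1 : ℝ) else 0) +
        (if M.mulVec x + M.vecMul x = ν then (1 : ℝ) else 0) *
          (if φ = M.mulVec x ∧ w = φ ⬝ᵥ x then (1 : ℝ) else 0)) := by
    intro φ w
    rw [sp_eq, sum_optv]
    refine Finset.sum_le_sum fun x _ => ?_
    rw [sum_z2]
    refine add_le_add ?_ ?_
    · by_cases h : extv x 0 ≠ 0 ∧ (ext M φ (φ + ν) w).mulVec (extv x 0) = 0 ∧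
          (ext M φ (φ + ν) w).vecMul (extv x 0) = 0
      · rw [if_pos h]
        rw [ext_mulVec, ext_vecMul, extv_eq_zero, extv_eq_zero, zero_smul, zero_smul, add_zero,
          add_zero, mul_zero, zero_mul, add_zero, add_zero, Ne, extv_eq_zero] at h
        obtain ⟨h0, ⟨h1, h2⟩, h3, h4⟩ := h
        rw [if_pos ⟨fun hx => h0 ⟨hx, rfl⟩, h1, h3⟩, if_pos (by rw [dotProduct_comm]; exact h4)]
        norm_num
      · rw [if_neg h]
        positivity
    · by_cases h : extv x 1 ≠ 0 ∧ (ext M φ (φ + ν) w).mulVec (extv x 1) = 0 ∧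
          (ext M φ (φ + ν) w).vecMul (extv x 1) = 0
      · rw [if_pos h]
        rw [ext_mulVec, ext_vecMul, extv_eq_zero, extv_eq_zero, one_smul, one_smul,
          mul_one, one_mul] at h
        obtain ⟨-, ⟨h1, h2⟩, h3, h4⟩ := h
        have e1 : φ = M.mulVec x := by
          rw [eq_neg_of_add_eq_zero_right h1, neg2v]
        have e2 : φ + ν = M.vecMul x := by
          rw [eq_neg_of_add_eq_zero_right h3, neg2v]
        have e3 : w = φ ⬝ᵥ x := by
          rw [eq_neg_of_add_eq_zero_right h4, neg2, dotProduct_comm]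
        have e4 : M.mulVec x + M.vecMul x = ν := by
          rw [← e1, ← e2, ← add_assoc]
          have : φ + φ = 0 := funext fun i => by
            have : ∀ a : ZMod 2, a + a = 0 := by decide
            exact this _
          rw [this, zero_add]
        rw [if_pos e4, if_pos ⟨e1, e3⟩]
        norm_num
      · rw [if_neg h]
        positivity
  have h2 : ∑ φ : V → ZMod 2, ∑ w : ZMod 2, (sp (ext M φ (φ + ν) w) : ℝ) ≤
      ∑ φ : V → ZMod 2, ∑ w : ZMod 2, ∑ x : V → ZMod 2,
        ((if x ≠ 0 ∧ M.mulVec x = 0 ∧ M.vecMul x = 0 then (1 : ℝ) else 0) *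
          (if φ ⬝ᵥ x = 0 then (1 : ℝ) else 0) +
        (if M.mulVec x + M.vecMul x = ν then (1 : ℝ) else 0) *
          (if φ = M.mulVec x ∧ w = φ ⬝ᵥ x then (1 : ℝ) else 0)) :=
    Finset.sum_le_sum fun φ _ => Finset.sum_le_sum fun w _ => h1 φ w
  refine h2.trans ?_
  have e1 : ∑ φ : V → ZMod 2, ∑ w : ZMod 2, ∑ x : V → ZMod 2,
        ((if x ≠ 0 ∧ M.mulVec x = 0 ∧ M.vecMul x = 0 then (1 : ℝ) else 0) *
          (if φ ⬝ᵥ x = 0 then (1 : ℝ) else 0) +
        (if M.mulVec x + M.vecMul x = ν then (1 : ℝ) else 0) *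
          (if φ = M.mulVec x ∧ w = φ ⬝ᵥ x then (1 : ℝ) else 0)) =
      ∑ x : V → ZMod 2, ∑ φ : V → ZMod 2, ∑ w : ZMod 2,
        ((if x ≠ 0 ∧ M.mulVec x = 0 ∧ M.vecMul x = 0 then (1 : ℝ) else 0) *
          (if φ ⬝ᵥ x = 0 then (1 : ℝ) else 0) +
        (if M.mulVec x + M.vecMul x = ν then (1 : ℝ) else 0) *
          (if φ = M.mulVec x ∧ w = φ ⬝ᵥ x then (1 : ℝ) else 0)) := by
    rw [Finset.sum_comm]
    rw [Finset.sum_congr rfl fun w _ => Finset.sum_comm]
    rw [Finset.sum_comm]
    refine Finset.sum_congr rfl fun x _ => ?_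
    rw [Finset.sum_comm]
  rw [e1]
  have e2 : ∀ x : V → ZMod 2, ∑ φ : V → ZMod 2, ∑ w : ZMod 2,
        ((if x ≠ 0 ∧ M.mulVec x = 0 ∧ M.vecMul x = 0 then (1 : ℝ) else 0) *
          (if φ ⬝ᵥ x = 0 then (1 : ℝ) else 0) +
        (if M.mulVec x + M.vecMul x = ν then (1 : ℝ) else 0) *
          (if φ = M.mulVec x ∧ w = φ ⬝ᵥ x then (1 : ℝ) else 0)) =
      (if x ≠ 0 ∧ M.mulVec x = 0 ∧ M.vecMul x = 0 then (1 : ℝ) else 0) * 2 ^ Fintype.card V +
        (if M.mulVec x + M.vecMul x = ν then (1 : ℝ) else 0) := by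
    intro x
    simp only [Finset.sum_add_distrib, ← Finset.mul_sum]
    congr 1
    · by_cases hx : x ≠ 0 ∧ M.mulVec x = 0 ∧ M.vecMul x = 0
      · rw [if_pos hx, one_mul, one_mul]
        simp only [Finset.sum_const, Finset.card_univ, ZMod.card, nsmul_eq_mul]
        rw [← Finset.mul_sum, half hx.1]
        push_cast
        ring
      · rw [if_neg hx, zero_mul, zero_mul]
    · have : ∀ φ : V → ZMod 2, ∑ w : ZMod 2,
          (if φ = M.mulVec x ∧ w = φ ⬝ᵥ x then (1 : ℝ) else 0) =
          if φ = M.mulVec x then (1 : ℝ) else 0 := by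
        intro φ
        by_cases hφ : φ = M.mulVec x
        · simp only [hφ, true_and, if_true]
          rw [Finset.sum_ite_eq']
          simp
        · simp [hφ]
      simp only [this]
      rw [Finset.sum_ite_eq']
      simp
  rw [Finset.sum_congr rfl fun x _ => e2 x, Finset.sum_add_distrib, ← Finset.sum_mul, ← sp_eq,
    mul_add]
  refine add_le_add (le_of_eq ?_) (card_sym M μ st hR ν)
  rw [pow_succ]
  ring

/-- **LA3** -/
theorem stmtLA3 : StmtLA3 := by
  intro V _ _ M μ e hR
  have h01 : ∀ a : V, (0 : V → ZMod 2) a = 1 → False := fun a h => absurd h (by simp)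
  have h := stmtLA3g V M μ 0 e 0 ⟨fun a b hab _ _ => hR a b hab, fun a b ha _ => (h01 a ha).elim,
    fun a ha => (h01 a ha).elim⟩
  simpa using h

end Vale.Agent.P017.R3.H237
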